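import Mathlib
import Vale.Agent.P087.Defs
import Vale.Agent.P087.Model
import Vale.Agent.P087.ChiFinite
import Vale.Agent.P087.Lower

/-!
A self-adjoint tuple in a tracial von Neumann algebra with `-∞ < χ < χ*`.
-/

namespace Vale.Agent.Results.P087.Disproof

open Vale.Agent.P087

/-- There is a tuple with finite microstates free entropy strictly below the non-microstates one. -/
theorem result :
    ∃ (N : ℕ) (H : Type) (_ : NormedAddCommGroup H) (_ : InnerProductSpace ℂ H)
      (_ : CompleteSpace H) (M : VonNeumannAlgebra H) (Ω : H) (X S : Fin N → H →L[ℂ] H),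
      1 ≤ N ∧ IsFaithfulTrace M Ω ∧
      (∀ j, X j ∈ M ∧ IsSelfAdjoint (X j) ∧ S j ∈ M ∧ IsSelfAdjoint (S j) ∧
        IsSemicircular Ω (S j)) ∧
      IsFreeFamily Ω (algebrasOf X S) ∧
      ⊥ < chi Ω X ∧ chi Ω X < chiStar Ω X S := by
  refine ⟨3 + (2 ^ 30) ^ 2, Model.HM ((2 ^ 30) ^ 2), inferInstance, inferInstance, inferInstance,
    Fock.vna, Model.om _, Model.xt _, Model.st _, Nat.le_add_right_of_le (by norm_num),
    Model.isFaithfulTrace _, fun j => ?_, Model.free _, ChiFinite.chi_gt_bot _,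
    Lower.chi_lt_chiStar⟩
  exact ⟨Model.xt_mem _ j, Model.xt_selfAdjoint _ j, Model.st_mem _ j, Model.st_selfAdjoint _ j,
    Model.st_semicircular _ j⟩

end Vale.Agent.Results.P087.Disproof
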